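import Vale.Agent.P092.H843.Gap2

set_option linter.all false

open scoped InnerProductSpace
open Filter Topology Matrix Matrix.SpecialLinearGroup

namespace Vale.Agent.P092.H843

open Vale.Agent.P092.H933 Vale.Agent.P092.H885

/-- `v` is orthogonal to the invariant vectors -/
def Orth {G : Type} [Group G] {H : Type} [NormedAddCommGroup H] [InnerProductSpace ℂ H]
    (σ : G →* (H →L[ℂ] H)) (v : H) : Prop := ∀ w, (∀ g, σ g w = w) → ⟪w, v⟫_ℂ = 0

theorem Orth.map {G : Type} [Group G] [TopologicalSpace G] {H : Type} [NormedAddCommGroup H]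
    [InnerProductSpace ℂ H] {σ : G →* (H →L[ℂ] H)} (hσ : Rp σ) {v : H} (hv : Orth σ v) (g : G) :
    Orth σ (σ g v) := by
  intro w hw
  rw [← hw g, hσ.inner_map]
  exact hv w hw

theorem Orth.add {G : Type} [Group G] {H : Type} [NormedAddCommGroup H]
    [InnerProductSpace ℂ H] {σ : G →* (H →L[ℂ] H)} {v w : H} (hv : Orth σ v) (hw : Orth σ w) :
    Orth σ (v + w) := fun x hx => by rw [inner_add_right, hv x hx, hw x hx, add_zero]

theorem Orth.smul {G : Type} [Group G] {H : Type} [NormedAddCommGroup H]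
    [InnerProductSpace ℂ H] {σ : G →* (H →L[ℂ] H)} {v : H} (hv : Orth σ v) (c : ℂ) :
    Orth σ (c • v) := fun x hx => by rw [inner_smul_right, hv x hx, mul_zero]

/-- the contraction rate -/
noncomputable def rhoG : ℝ := (1 + Real.sqrt (1 - 1 / 576)) / 2

theorem rhoG_nonneg : 0 ≤ rhoG := by
  have := Real.sqrt_nonneg (1 - 1 / 576)
  unfold rhoG; linarith

theorem rhoG_lt_one : rhoG < 1 := by
  have h1 : Real.sqrt (1 - 1 / 576) < 1 := by
    rw [Real.sqrt_lt' one_pos]; norm_num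
  unfold rhoG; linarith

theorem mid_le {H : Type} [NormedAddCommGroup H] [InnerProductSpace ℂ H] {v w : H}
    (h : ‖w‖ = ‖v‖) (hd : ‖v‖ / 12 ≤ ‖w - v‖) :
    ‖v + w‖ ≤ 2 * Real.sqrt (1 - 1 / 576) * ‖v‖ := by
  have h1 := parallelogram_law_with_norm ℂ v w
  have h2 : ‖v - w‖ = ‖w - v‖ := norm_sub_rev _ _
  rw [h2, h] at h1
  have h3 : (‖v‖ / 12) * (‖v‖ / 12) ≤ ‖w - v‖ * ‖w - v‖ :=
    mul_self_le_mul_self (by positivity) hd
  have h4 : ‖v + w‖ ^ 2 ≤ (2 * Real.sqrt (1 - 1 / 576) * ‖v‖) ^ 2 := by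
    rw [mul_pow, mul_pow, Real.sq_sqrt (by norm_num)]
    nlinarith
  exact le_of_sq_le_sq h4 (by positivity)

section gap

variable {n : ℕ} {𝕜 : Type} [RCLike 𝕜] {H : Type} [NormedAddCommGroup H] [InnerProductSpace ℂ H]
  [CompleteSpace H] {σ : SpecialLinearGroup (Fin n) 𝕜 →* (H →L[ℂ] H)}

/-- the four letters `1, 1, e_ij(3), e_ji(3)` -/
noncomputable def let4 {i j : Fin n} (hij : i ≠ j) : Fin 4 → SpecialLinearGroup (Fin n) 𝕜 :=
  ![1, 1, transvection hij 3, transvection hij.symm 3]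

theorem step_eq {i j : Fin n} (hij : i ≠ j) (v : H) :
    ∑ q, σ (let4 hij q) v = (v + σ (transvection hij 3) v) +
      (v + σ (transvection hij.symm 3) v) := by
  rw [Fin.sum_univ_four]
  change σ 1 v + σ 1 v + σ (transvection hij 3) v + σ (transvection hij.symm 3) v = _
  rw [Rp.one_apply]
  abel

theorem step_norm (hσ : Rp σ) {i j l : Fin n} (hij : i ≠ j) (hil : i ≠ l) (hjl : j ≠ l) {v : H}
    (hv : Orth σ v) : ‖(4 : ℂ)⁻¹ • ∑ q, σ (let4 hij q) v‖ ≤ rhoG * ‖v‖ := by
  rw [step_eq, norm_smul, norm_inv]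
  have h4 : ‖(4 : ℂ)‖ = 4 := by simp
  rw [h4]
  set r := Real.sqrt (1 - 1 / 576) with hr
  have hr0 : 0 ≤ r := Real.sqrt_nonneg _
  have hv0 := norm_nonneg v
  have triv : ∀ g : SpecialLinearGroup (Fin n) 𝕜, ‖v + σ g v‖ ≤ 2 * ‖v‖ := fun g => by
    refine (norm_add_le _ _).trans ?_
    rw [hσ.iso]; linarith
  have hmax : ‖v‖ / 12 ≤ ‖σ (transvection hij 3) v - v‖ ∨
      ‖v‖ / 12 ≤ ‖σ (transvection hij.symm 3) v - v‖ := by
    by_contra hcon
    push Not at hcon
    obtain ⟨b1, b2⟩ := hcon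
    set c := max ‖σ (transvection hij 3) v - v‖ ‖σ (transvection hij.symm 3) v - v‖ with hc
    have h1 := levi_move hσ hij hil hjl hv (c := c) (le_max_left _ _) (le_max_right _ _)
    have h2 : c < ‖v‖ / 12 := max_lt b1 b2
    linarith
  have key : ‖v + σ (transvection hij 3) v + (v + σ (transvection hij.symm 3) v)‖ ≤
      2 * ‖v‖ + 2 * r * ‖v‖ := by
    refine (norm_add_le _ _).trans ?_
    rcases hmax with h | h
    · have h5 := mid_le (hσ.iso _ _) h
      rw [← hr] at h5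
      have := triv (transvection hij.symm 3)
      linarith
    · have h5 := mid_le (hσ.iso _ _) h
      rw [← hr] at h5
      have := triv (transvection hij 3)
      linarith
  calc (4 : ℝ)⁻¹ * ‖v + σ (transvection hij 3) v + (v + σ (transvection hij.symm 3) v)‖
      ≤ (4 : ℝ)⁻¹ * (2 * ‖v‖ + 2 * r * ‖v‖) := by gcongr
    _ = rhoG * ‖v‖ := by rw [rhoG, ← hr]; ring

theorem step_orth (hσ : Rp σ) {i j : Fin n} (hij : i ≠ j) {v : H} (hv : Orth σ v) :
    Orth σ ((4 : ℂ)⁻¹ • ∑ q, σ (let4 hij q) v) := by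
  refine Orth.smul ?_ _
  rw [step_eq]
  exact (hv.add (hv.map hσ _)).add (hv.add (hv.map hσ _))

end gap

/-- **(G2), iterated form**: `m` steps. -/
theorem levi_iter {n : ℕ} {𝕜 : Type} [RCLike 𝕜] {i j l : Fin n} (hij : i ≠ j) (hil : i ≠ l)
    (hjl : j ≠ l) (m : ℕ) : ∃ (p : ℕ) (_ : 0 < p) (L : Fin p → SpecialLinearGroup (Fin n) 𝕜),
      (∀ r, L r ∈ Subgroup.closure {transvection hij (3 : 𝕜), transvection hij.symm (3 : 𝕜)}) ∧
      ∀ {H : Type} [NormedAddCommGroup H] [InnerProductSpace ℂ H] [CompleteSpace H]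
        (σ : SpecialLinearGroup (Fin n) 𝕜 →* (H →L[ℂ] H)), Rp σ → ∀ v, Orth σ v →
        ‖(p : ℂ)⁻¹ • ∑ r, σ (L r) v‖ ≤ rhoG ^ m * ‖v‖ := by
  induction m with
  | zero =>
    refine ⟨1, one_pos, fun _ => 1, fun _ => Subgroup.one_mem _, ?_⟩
    intro H _ _ _ σ hσ v hv
    simp
  | succ m ih =>
    obtain ⟨p, hp, L, hL, hb⟩ := ih
    refine ⟨p * 4, by omega, fun r => L (finProdFinEquiv.symm r).1 *
      let4 hij (finProdFinEquiv.symm r).2, fun r => ?_, ?_⟩
    · refine Subgroup.mul_mem _ (hL _) ?_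
      generalize (finProdFinEquiv.symm r).2 = q
      fin_cases q
      · exact Subgroup.one_mem _
      · exact Subgroup.one_mem _
      · exact Subgroup.subset_closure (Or.inl rfl)
      · exact Subgroup.subset_closure (Or.inr rfl)
    · intro H _ _ _ σ hσ v hv
      have e1 : ∑ r, σ (L (finProdFinEquiv.symm r).1 * let4 hij (finProdFinEquiv.symm r).2) v =
          ∑ r, σ (L r) (∑ q, σ (let4 hij q) v) := by
        rw [← finProdFinEquiv.sum_comp]
        simp only [Equiv.symm_apply_apply]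
        rw [Fintype.sum_prod_type]
        refine Finset.sum_congr rfl fun r _ => ?_
        rw [map_sum]
        exact Finset.sum_congr rfl fun q _ => Rp.mul_apply _ _ _
      have e2 : ((p * 4 : ℕ) : ℂ)⁻¹ • ∑ r, σ (L r) (∑ q, σ (let4 hij q) v) =
          (p : ℂ)⁻¹ • ∑ r, σ (L r) ((4 : ℂ)⁻¹ • ∑ q, σ (let4 hij q) v) := by
        simp only [map_smul]
        rw [← Finset.smul_sum, smul_smul]
        congr 1
        push_cast
        rw [mul_inv]
      rw [e1, e2]
      refine (hb σ hσ _ (step_orth hσ hij hv)).trans ?_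
      rw [pow_succ, mul_assoc]
      exact mul_le_mul_of_nonneg_left (step_norm hσ hij hil hjl hv) (pow_nonneg rhoG_nonneg _)

/-- **(G2)** the spectral gap of the Levi subgroup: finite averages of norm `≤ η` on the
orthogonal complement of the invariant vectors, the same for all representations. -/
theorem levi_gap {n : ℕ} {𝕜 : Type} [RCLike 𝕜] {i j l : Fin n} (hij : i ≠ j) (hil : i ≠ l)
    (hjl : j ≠ l) {η : ℝ} (hη : 0 < η) :
    ∃ (p : ℕ) (_ : 0 < p) (L : Fin p → SpecialLinearGroup (Fin n) 𝕜),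
      (∀ r, L r ∈ Subgroup.closure {transvection hij (3 : 𝕜), transvection hij.symm (3 : 𝕜)}) ∧
      ∀ {H : Type} [NormedAddCommGroup H] [InnerProductSpace ℂ H] [CompleteSpace H]
        (σ : SpecialLinearGroup (Fin n) 𝕜 →* (H →L[ℂ] H)), Rp σ → ∀ v, Orth σ v →
        ‖(p : ℂ)⁻¹ • ∑ r, σ (L r) v‖ ≤ η * ‖v‖ := by
  obtain ⟨m, hm⟩ := exists_pow_lt_of_lt_one hη rhoG_lt_one
  obtain ⟨p, hp, L, hL, hb⟩ := levi_iter (𝕜 := 𝕜) hij hil hjl m
  exact ⟨p, hp, L, hL, fun σ hσ v hv => (hb σ hσ v hv).trans (by gcongr)⟩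

/-- **(G3)** the elements of the list commute with every diagonal matrix (of determinant 1) which
is equal in the places `i, j`. -/
theorem levi_comm {n : ℕ} {𝕜 : Type} [RCLike 𝕜] {i j : Fin n} (hij : i ≠ j)
    {g : SpecialLinearGroup (Fin n) 𝕜} {d : Fin n → 𝕜} (hg : g.1 = Matrix.diagonal d)
    (hd : d i = d j) {x : SpecialLinearGroup (Fin n) 𝕜}
    (hx : x ∈ Subgroup.closure {transvection hij (3 : 𝕜), transvection hij.symm (3 : 𝕜)}) :
    g * x = x * g := by
  have key : ∀ (a b : Fin n) (hab : a ≠ b) (t : 𝕜), d a = d b →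
      g * transvection hab t = transvection hab t * g := by
    intro a b hab t h
    refine Subtype.ext ?_
    change g.1 * (1 + Matrix.single a b t) = (1 + Matrix.single a b t) * g.1
    rw [hg, mul_add, add_mul, mul_one, one_mul]
    congr 1
    ext x y
    rw [Matrix.diagonal_mul, Matrix.mul_diagonal, Matrix.single_apply]
    split_ifs with h1
    · obtain ⟨rfl, rfl⟩ := h1
      rw [h, mul_comm]
    · simp
  induction hx using Subgroup.closure_induction with
  | mem x hx =>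
    rcases hx with rfl | rfl
    · exact key i j hij 3 hd
    · exact key j i hij.symm 3 hd.symm
  | one => rw [mul_one, one_mul]
  | mul x y _ _ h1 h2 => rw [← mul_assoc, h1, mul_assoc, h2, mul_assoc]
  | inv x _ h1 =>
    have := congrArg (fun z => x⁻¹ * z * x⁻¹) h1
    simp only [mul_assoc, mul_inv_cancel, mul_one] at this
    rw [inv_mul_cancel_left] at this
    exact this.symm

end Vale.Agent.P092.H843
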