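import Vale.Agent.P092.H885.RelT2
import Vale.Agent.P092.H933.HM1

/-!
Team D, block [D-GAP]: the spectral gap of the Levi subgroup.

For a unitary representation of `SL_n(𝕜)` (`𝕜 = ℝ, ℂ`, `n ≥ 3` through three distinct places
`i, j, l`), finite averages over elements of the `SL₂` in the places `i, j` have arbitrarily small
norm on the vectors orthogonal to the invariant ones.  The elements do not depend on the
representation, and commute with every diagonal matrix which is equal in the places `i, j`.
-/

set_option linter.all false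

open scoped InnerProductSpace
open Filter Topology Matrix Matrix.SpecialLinearGroup

namespace Vale.Agent.P092.H843

open Vale.Agent.P092.H933 Vale.Agent.P092.H885

section root

variable {n : ℕ} {𝕜 : Type} [RCLike 𝕜]

/-- Mautner, integer form: a length function vanishing on the integer points of one root group
vanishes identically. -/
theorem eq_top_of_int {f : SpecialLinearGroup (Fin n) 𝕜 → ℝ} (hf : Len f) {i j : Fin n}
    (hij : i ≠ j) (h : ∀ m : ℤ, transvection hij (m : 𝕜) ∈ hf.ker) : hf.ker = ⊤ := by
  have h2 : (2 : 𝕜) ≠ 0 := two_ne_zero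
  have hpow : ∀ N : ℕ, ((2 : 𝕜) ^ N)⁻¹ ≠ 0 := fun N => inv_ne_zero (pow_ne_zero _ h2)
  have hd : ∀ N : ℕ, diag2n hij ((2 : 𝕜) ^ N)⁻¹ (hpow N) ∈ hf.ker := by
    intro N
    set x : 𝕜 := ((2 : 𝕜) ^ N)⁻¹ with hx
    have key : ∀ M : ℕ, f (diag2n hij x (hpow N)) ≤
        f (transvection hij.symm ((x - 1) * (1 / ((M : 𝕜) + 1)))) +
          f (transvection hij.symm (-((x - 1) * (1 / ((M : 𝕜) + 1)) * x))) := by
      intro M
      have hM : (M : 𝕜) + 1 ≠ 0 := Nat.cast_add_one_ne_zero M
      have e := H899.diag2n_eq hij ((M : 𝕜) + 1) ((x - 1) * (1 / ((M : 𝕜) + 1))) x (hpow N)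
        (by field_simp)
      rw [e]
      have m1 := hf.mul (transvection hij ((M : 𝕜) + 1) *
        transvection hij.symm ((x - 1) * (1 / ((M : 𝕜) + 1))) *
        transvection hij (-(((M : 𝕜) + 1) / x)))
        (transvection hij.symm (-((x - 1) * (1 / ((M : 𝕜) + 1)) * x)))
      have m2 := hf.mul (transvection hij ((M : 𝕜) + 1) *
        transvection hij.symm ((x - 1) * (1 / ((M : 𝕜) + 1))))
        (transvection hij (-(((M : 𝕜) + 1) / x)))
      have m3 := hf.mul (transvection hij ((M : 𝕜) + 1))
        (transvection hij.symm ((x - 1) * (1 / ((M : 𝕜) + 1))))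
      have z1 : f (transvection hij ((M : 𝕜) + 1)) = 0 := by
        have := h ((M : ℤ) + 1)
        push_cast at this
        exact this
      have z2 : f (transvection hij (-(((M : 𝕜) + 1) / x))) = 0 := by
        have := h (-(((M : ℤ) + 1) * 2 ^ N))
        push_cast at this
        rw [hx, div_inv_eq_mul]
        exact this
      linarith
    have t0 : Tendsto (fun M : ℕ => (1 : 𝕜) / ((M : 𝕜) + 1)) atTop (𝓝 0) :=
      tendsto_one_div_add_atTop_nhds_zero_nat
    have t1 : Tendsto (fun M : ℕ => f (transvection hij.symm ((x - 1) * (1 / ((M : 𝕜) + 1)))))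
        atTop (𝓝 0) := by
      refine hf.cont.comp (tendsto_transvection hij.symm ?_)
      have := t0.const_mul (x - 1)
      rwa [mul_zero] at this
    have t2 : Tendsto (fun M : ℕ =>
        f (transvection hij.symm (-((x - 1) * (1 / ((M : 𝕜) + 1)) * x)))) atTop (𝓝 0) := by
      refine hf.cont.comp (tendsto_transvection hij.symm ?_)
      have := ((t0.const_mul (x - 1)).mul_const x).neg
      rwa [mul_zero, zero_mul, neg_zero] at this
    have t3 := t1.add t2
    rw [add_zero] at t3
    exact le_antisymm (ge_of_tendsto' t3 key) (hf.nonneg _)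
  refine hf.eq_top hij fun s => ?_
  refine hf.mem_of_contract (d := fun N => diag2n hij ((2 : 𝕜) ^ N)⁻¹ (hpow N)) hd ?_
  simp only [conj_diag2n]
  refine tendsto_transvection hij ?_
  have hc : Tendsto (fun N : ℕ => ((2 : 𝕜) ^ N)⁻¹) atTop (𝓝 0) := by
    have h5 : ‖(1 / 2 : 𝕜)‖ < 1 := by
      rw [norm_div, norm_one, RCLike.norm_ofNat]; norm_num
    have := tendsto_pow_atTop_nhds_zero_of_norm_lt_one h5
    refine this.congr fun N => ?_
    rw [one_div, inv_pow]
  have := (hc.mul_const s).mul hc
  rw [zero_mul, zero_mul] at this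
  refine this.congr fun N => ?_
  have h1 : j ≠ i := hij.symm
  simp [wt, h1]

end root

end Vale.Agent.P092.H843
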