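import Vale.Agent.P092.H843.Gap

set_option linter.all false

open scoped InnerProductSpace
open Filter Topology Matrix Matrix.SpecialLinearGroup

namespace Vale.Agent.P092.H843

open Vale.Agent.P092.H933 Vale.Agent.P092.H885

/-- An isometric representation, strongly continuous at `1`. -/
structure Rp {G : Type} [Group G] [TopologicalSpace G] {H : Type} [NormedAddCommGroup H]
    [InnerProductSpace ℂ H] (σ : G →* (H →L[ℂ] H)) : Prop where
  iso : ∀ g ξ, ‖σ g ξ‖ = ‖ξ‖
  cont : ∀ ξ, Tendsto (fun g => σ g ξ) (𝓝 1) (𝓝 ξ)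

namespace Rp

variable {G : Type} [Group G] [TopologicalSpace G] {H : Type} [NormedAddCommGroup H]
    [InnerProductSpace ℂ H] {σ : G →* (H →L[ℂ] H)}

theorem mul_apply (g g' : G) (x : H) : σ (g * g') x = σ g (σ g' x) := by
  rw [map_mul]; rfl

theorem one_apply (x : H) : σ 1 x = x := by
  rw [map_one]; rfl

theorem inner_map (h : Rp σ) (g : G) (x y : H) : ⟪σ g x, σ g y⟫_ℂ = ⟪x, y⟫_ℂ := by
  let f : H →ₗᵢ[ℂ] H := ⟨(σ g).toLinearMap, h.iso g⟩
  exact f.inner_map_map x y

theorem inner_left (h : Rp σ) (g : G) (x y : H) : ⟪σ g x, y⟫_ℂ = ⟪x, σ g⁻¹ y⟫_ℂ := by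
  have e : y = σ g (σ g⁻¹ y) := by rw [← mul_apply, mul_inv_cancel, one_apply]
  conv_lhs => rw [e]
  exact h.inner_map g _ _

theorem star_eq [CompleteSpace H] (h : Rp σ) (g : G) : star (σ g) = σ g⁻¹ := by
  refine ContinuousLinearMap.ext fun x => ext_inner_right ℂ fun y => ?_
  rw [ContinuousLinearMap.star_eq_adjoint, ContinuousLinearMap.adjoint_inner_left]
  have := h.inner_left g⁻¹ x y
  rw [inv_inv] at this
  exact this.symm

theorem len (h : Rp σ) (x : H) : Len (fun g => ‖σ g x - x‖) := by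
  have h1 := Len.ofAction (G := G) (X := H) (fun g x => σ g x) (fun g g' x => mul_apply g g' x) x
    (one_apply x) (fun g x y => by
      rw [dist_eq_norm, dist_eq_norm, ← map_sub, h.iso]) (h.cont x)
  simpa only [dist_eq_norm] using h1

end Rp

section rel

variable {n : ℕ} {𝕜 : Type} [RCLike 𝕜]

theorem rel_mat {i j l : Fin n} (hij : i ≠ j) (hjl : j ≠ l) (hil : i ≠ l) (c d : 𝕜) :
    Matrix.transvection i l c * Matrix.transvection j l d =
      Matrix.transvection j l d * Matrix.transvection i l c ∧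
    Matrix.transvection i j c * Matrix.transvection i l d =
      Matrix.transvection i l d * Matrix.transvection i j c ∧
    Matrix.transvection i j c * Matrix.transvection j l d =
      Matrix.transvection j l d * Matrix.transvection i l (c * d) * Matrix.transvection i j c := by
  simp only [Matrix.transvection, mul_add, add_mul, mul_one, one_mul]
  simp only [Matrix.single_mul_single_same, ne_eq, hij, hij.symm, hjl, hjl.symm, hil, hil.symm,
    not_false_eq_true, Matrix.single_mul_single_of_ne, add_zero, mul_zero, zero_mul, Matrix.mul_zero,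
    Matrix.zero_mul]
  refine ⟨by abel, by abel, by abel⟩

theorem rel_sl {i j l : Fin n} (hij : i ≠ j) (hjl : j ≠ l) (hil : i ≠ l) (c d : 𝕜) :
    (transvection hil c : SpecialLinearGroup (Fin n) 𝕜) * transvection hjl d =
      transvection hjl d * transvection hil c ∧
    (transvection hij c : SpecialLinearGroup (Fin n) 𝕜) * transvection hil d =
      transvection hil d * transvection hij c ∧
    (transvection hij c : SpecialLinearGroup (Fin n) 𝕜) * transvection hjl d =
      transvection hjl d * transvection hil (c * d) * transvection hij c :=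
  ⟨Subtype.ext (rel_mat hij hjl hil c d).1, Subtype.ext (rel_mat hij hjl hil c d).2.1,
    Subtype.ext (rel_mat hij hjl hil c d).2.2⟩

theorem trans_pow {i l : Fin n} (hil : i ≠ l) (m : ℕ) :
    (transvection hil (1 : 𝕜) : SpecialLinearGroup (Fin n) 𝕜) ^ m = transvection hil (m : 𝕜) := by
  induction m with
  | zero => rw [pow_zero, Nat.cast_zero, transvection_coeff_zero]
  | succ m ih => rw [pow_succ, ih, Nat.cast_succ, transvection_add]

theorem trans_zpow {i l : Fin n} (hil : i ≠ l) (m : ℤ) :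
    (transvection hil (1 : 𝕜) : SpecialLinearGroup (Fin n) 𝕜) ^ m = transvection hil (m : 𝕜) := by
  cases m with
  | ofNat m => 
    change (transvection hil (1 : 𝕜) : SpecialLinearGroup (Fin n) 𝕜) ^ ((m : ℕ) : ℤ) = _
    rw [zpow_natCast, trans_pow]; simp
  | negSucc m =>
    rw [zpow_negSucc, trans_pow, inv_eq_iff_mul_eq_one, ← transvection_add]
    push_cast
    rw [add_neg_cancel, transvection_coeff_zero]

/-- the contracting elements, which commute with the Levi subgroup -/
noncomputable def bN {i j l : Fin n} (hil : i ≠ l) (hjl : j ≠ l) (a : 𝕜) (ha : a ≠ 0) :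
    SpecialLinearGroup (Fin n) 𝕜 := diag2n hil a ha * diag2n hjl a ha

theorem bN_conj {i j l : Fin n} (hil : i ≠ l) (hjl : j ≠ l) (a : 𝕜) (ha : a ≠ 0) {p q : Fin n}
    (hpq : p ≠ q) (t : 𝕜) : bN hil hjl a ha * transvection hpq t * (bN hil hjl a ha)⁻¹ =
      transvection hpq (wt (i := i) (j := l) a p * (wt (i := j) (j := l) a p * t *
        (wt (i := j) (j := l) a q)⁻¹) * (wt (i := i) (j := l) a q)⁻¹) := by
  have e : bN hil hjl a ha * transvection hpq t * (bN hil hjl a ha)⁻¹ =
      diag2n hil a ha * (diag2n hjl a ha * transvection hpq t * (diag2n hjl a ha)⁻¹) *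
        (diag2n hil a ha)⁻¹ := by rw [bN]; group
  rw [e, conj_diag2n, conj_diag2n]

theorem bN_levi {i j l : Fin n} (hij : i ≠ j) (hil : i ≠ l) (hjl : j ≠ l) (a : 𝕜) (ha : a ≠ 0)
    (t : 𝕜) : bN hil hjl a ha * transvection hij t * (bN hil hjl a ha)⁻¹ =
      transvection hij t := by
  rw [bN_conj]
  congr 1
  simp only [wt, hij, hij.symm, hil, hjl, ↓reduceIte]
  field_simp

theorem bN_levi' {i j l : Fin n} (hij : i ≠ j) (hil : i ≠ l) (hjl : j ≠ l) (a : 𝕜) (ha : a ≠ 0)
    (t : 𝕜) : bN hil hjl a ha * transvection hij.symm t * (bN hil hjl a ha)⁻¹ =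
      transvection hij.symm t := by
  rw [bN_conj]
  congr 1
  simp only [wt, hij, hij.symm, hil, hjl, ↓reduceIte]
  field_simp

theorem bN_root {i j l : Fin n} (hij : i ≠ j) (hil : i ≠ l) (hjl : j ≠ l) (a : 𝕜) (ha : a ≠ 0)
    (t : 𝕜) : bN hil hjl a ha * transvection hil t * (bN hil hjl a ha)⁻¹ =
      transvection hil (a * a * a * t) := by
  rw [bN_conj]
  congr 1
  simp only [wt, hij, hij.symm, hil, hjl, hil.symm, hjl.symm, ↓reduceIte]
  field_simp

theorem bN_root' {i j l : Fin n} (hij : i ≠ j) (hil : i ≠ l) (hjl : j ≠ l) (a : 𝕜) (ha : a ≠ 0)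
    (t : 𝕜) : bN hil hjl a ha * transvection hjl t * (bN hil hjl a ha)⁻¹ =
      transvection hjl (a * a * a * t) := by
  rw [bN_conj]
  congr 1
  simp only [wt, hij, hij.symm, hil, hjl, hil.symm, hjl.symm, ↓reduceIte]
  field_simp

end rel

section gap

variable {n : ℕ} {𝕜 : Type} [RCLike 𝕜] {H : Type} [NormedAddCommGroup H] [InnerProductSpace ℂ H]
  [CompleteSpace H] {σ : SpecialLinearGroup (Fin n) 𝕜 →* (H →L[ℂ] H)}

/-- a vector fixed by one integer root element is invariant -/
theorem fix_of_root (hσ : Rp σ) {i l : Fin n} (hil : i ≠ l) {η : H}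
    (h : σ (transvection hil 1) η = η) (g : SpecialLinearGroup (Fin n) 𝕜) : σ g η = η := by
  have hk := eq_top_of_int (hσ.len η) hil (fun m => by
    rw [← trans_zpow]
    refine Subgroup.zpow_mem _ ?_ m
    rw [Len.mem_ker, h, sub_self, norm_zero])
  have : g ∈ (hσ.len η).ker := by rw [hk]; trivial
  rw [Len.mem_ker] at this
  exact sub_eq_zero.1 (norm_eq_zero.1 this)

/-- **(G1)** a vector orthogonal to the invariant ones is moved by one of the two shears of the
Levi subgroup. -/
theorem levi_move (hσ : Rp σ) {i j l : Fin n} (hij : i ≠ j) (hil : i ≠ l) (hjl : j ≠ l) {v : H}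
    (hv : ∀ w, (∀ g, σ g w = w) → ⟪w, v⟫_ℂ = 0) {c : ℝ}
    (h1 : ‖σ (transvection hij 3) v - v‖ ≤ c) (h2 : ‖σ (transvection hij.symm 3) v - v‖ ≤ c) :
    ‖v‖ ≤ 12 * c := by
  by_contra hcon
  rw [not_le] at hcon
  have hc0 : 0 ≤ c := (norm_nonneg _).trans h1
  have hv0 : 0 < ‖v‖ := lt_of_le_of_lt (by positivity) hcon
  -- a slightly larger constant
  obtain ⟨c', hc', hcv, hcc⟩ : ∃ c' : ℝ, 0 < c' ∧ 12 * c' < ‖v‖ ∧ c ≤ c' := by
    refine ⟨(c + ‖v‖ / 12) / 2, by positivity, by linarith, by linarith⟩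
  -- contraction
  set a : ℕ → 𝕜 := fun N => (1 / 2 : 𝕜) ^ N with ha
  have ha0 : ∀ N, a N ≠ 0 := fun N => pow_ne_zero _ (by norm_num)
  have hat : Tendsto a atTop (𝓝 0) := by
    have h5 : ‖(1 / 2 : 𝕜)‖ < 1 := by
      rw [norm_div, norm_one, RCLike.norm_ofNat]; norm_num
    exact tendsto_pow_atTop_nhds_zero_of_norm_lt_one h5
  have hat3 : Tendsto (fun N => a N * a N * a N * 1) atTop (𝓝 0) := by
    have := ((hat.mul hat).mul hat).mul_const 1
    simpa using this
  have hU : ∀ᶠ N in atTop, ‖σ (transvection hil (a N * a N * a N * 1)) v - v‖ ≤ c' := by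
    have t1 := (hσ.len v).cont.comp (tendsto_transvection hil hat3)
    exact (t1.eventually (gt_mem_nhds hc')).mono fun N h => le_of_lt h
  have hV : ∀ᶠ N in atTop, ‖σ (transvection hjl (a N * a N * a N * 1)) v - v‖ ≤ c' := by
    have t1 := (hσ.len v).cont.comp (tendsto_transvection hjl hat3)
    exact (t1.eventually (gt_mem_nhds hc')).mono fun N h => le_of_lt h
  obtain ⟨N, hU, hV⟩ := (hU.and hV).exists
  set B := bN hil hjl (a N) (ha0 N) with hB
  set u : H := σ B⁻¹ v with hu
  have hmove : ∀ g : SpecialLinearGroup (Fin n) 𝕜, ‖σ g u - u‖ = ‖σ (B * g * B⁻¹) v - v‖ := by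
    intro g
    rw [← hσ.iso B (σ g u - u), map_sub, hu, ← Rp.mul_apply, ← Rp.mul_apply, ← Rp.mul_apply,
      mul_inv_cancel, Rp.one_apply]
  have hnu : ‖u‖ = ‖v‖ := hσ.iso _ _
  have hstar : ∀ g, star (σ g) * σ g = 1 := fun g => by
    rw [hσ.star_eq, ← map_mul, inv_mul_cancel, map_one]
  have hstar' : ∀ g, σ g * star (σ g) = 1 := fun g => by
    rw [hσ.star_eq, ← map_mul, mul_inv_cancel, map_one]
  refine rel_gap (U := σ (transvection hil 1)) (V := σ (transvection hjl 1))
    (W1 := σ (transvection hij 3)) (W2 := σ (transvection hij.symm 3)) (hstar _) (hstar' _)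
    (hstar _) (hstar' _) (hstar' _) (hstar _) (hstar' _) (hstar _) ?_ (m := 3) le_rfl ?_ ?_ ?_ ?_
    (v := u) ?_ (c := c') ?_ ?_ ?_ ?_ ?_
  · rw [← map_mul, (rel_sl hij hjl hil 1 1).1, map_mul]
  · rw [← map_mul, (rel_sl hij hjl hil 3 1).2.1, map_mul]
  · rw [← map_mul, (rel_sl hij hjl hil 3 1).2.2, map_mul, map_mul, ← map_pow, trans_pow]
    norm_num
  · rw [← map_mul, (rel_sl hij.symm hil hjl 3 1).2.1, map_mul]
  · rw [← map_mul, (rel_sl hij.symm hil hjl 3 1).2.2, map_mul, map_mul, ← map_pow, trans_pow]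
    norm_num
  · intro η hη _
    have hfix := fix_of_root hσ hil hη
    rw [hu, ← inner_conj_symm, hσ.inner_left, inv_inv, hfix B, inner_conj_symm]
    exact hv η hfix
  · rw [hmove, bN_root hij hil hjl]; exact hU
  · rw [hmove, bN_root' hij hil hjl]; exact hV
  · rw [hmove, bN_levi hij hil hjl]; exact h1.trans hcc
  · rw [hmove, bN_levi' hij hil hjl]; exact h2.trans hcc
  · rw [hnu]
    calc 4 * ((3 : ℕ) : ℝ) * c' = 12 * c' := by norm_num
      _ < _ := hcv

end gap

end Vale.Agent.P092.H843
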